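import Vale.Agent.P250.Sink.Onto
import Vale.Agent.P253.Circle.Final

/-!
P250: the orbit energy obeys a Schwarz inequality, so orbits leave in bounded time and the
linearised domain is bounded.
-/

open scoped Manifold ContDiff InnerProductSpace Topology
open Complex Set Filter

noncomputable section

namespace Vale.Agent.P250.Sink

open Vale.Agent.Results.P253.SymmetricDomains (rot RealSymmetry)
open Vale.Agent.P253.Circle

variable {n : ℕ} {k : Fin n → ℕ} {D : Set (Cn n)} {H : Cn n → (Cn n →L[ℂ] Cn n)} {a : ℝ}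

theorem energy_pos (hH : Local D H) (hk : ∀ j, 0 < k j) {w : Cn n} (hw : w ≠ 0) {t : ℝ}
    (ht : rot k (t : ℂ) w ∈ D) : 0 < energy k H w t := by
  have hne : rot k (t : ℂ) w ≠ 0 := fun h => hw <| by
    have := congrArg (rot k (-(t : ℂ))) h
    rw [← rot_add, neg_add_cancel, rot_zero] at this
    rw [this, rot_eq]
    exact map_zero _
  show 0 < sq (H (rot k (t : ℂ) w)) (rot k (t : ℂ) (eul k w))
  rw [← rot_eul]
  exact (hH.pos _ ht).pos _ (eul_ne hk hne)

/-- Schwarz inequality along an orbit. -/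
theorem energy_schwarz (hH : Local D H) (hS : RealSymmetry D H (rot k)) (hN : Neg D H a)
    (hk : ∀ j, 0 < k j) (h0 : (0 : Cn n) ∈ D) {w : Cn n} (hw : w ≠ 0) {T : ℝ}
    (horb : ∀ t ≤ T, rot k (t : ℂ) w ∈ D) {t : ℝ} (ht : t ≤ T) :
    8 * a * energy k H w t ^ 3 ≤ deriv (energy k H w) t ^ 2 := by
  set f := energy k H w
  set g : ℝ → ℝ := fun s => (deriv f s / f s) ^ 2 - 8 * a * f s
  have hg : ∀ s ≤ T, ∃ g', 0 ≤ g' ∧ HasDerivAt g g' s := fun s hs => by
    obtain ⟨f₁, f₂, h1, h2, h3⟩ := energy_riccati hH hS hN (horb s hs)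
    have hp : 0 < f s := energy_pos hH hk hw (horb s hs)
    have hd : deriv f s = f₁ := h1.deriv
    have hnn : 0 ≤ f₁ := hd ▸ (push_mono hH hS hN hk h0 horb).1 s hs
    refine ⟨_, ?_, ((h2.div h1 hp.ne').pow 2).sub (h1.const_mul (8 * a))⟩
    rw [hd]
    have hd' : deriv (energy k H w) s = f₁ := hd
    simp only [Pi.div_apply]
    have e : 4 * a * f s ≤ (f₂ * f s - f₁ * f₁) / f s ^ 2 := by
      rw [le_div_iff₀ (by positivity)]
      linarith
    norm_num [hd']
    have hq : 0 ≤ f₁ / f s := div_nonneg hnn hp.le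
    have hm := mul_le_mul_of_nonneg_left e hq
    have : f₁ / f s * (4 * a * f s) = 4 * a * f₁ := by field_simp
    simp only [f] at hm this
    linarith
  have hmono : MonotoneOn g (Iic T) := by
    refine monotoneOn_of_deriv_nonneg (convex_Iic T) (fun s hs => ?_) (fun s hs => ?_) fun s hs => ?_
    · obtain ⟨g', -, h⟩ := hg s hs
      exact h.continuousAt.continuousWithinAt
    · obtain ⟨g', -, h⟩ := hg s (interior_subset (s := Iic T) hs)
      exact h.differentiableAt.differentiableWithinAt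
    · obtain ⟨g', h0', h⟩ := hg s (interior_subset (s := Iic T) hs)
      rw [h.deriv]; exact h0'
  have hlim : Tendsto (fun s => -(8 * a * f s)) atBot (𝓝 0) := by
    simpa using ((push_tendsto hH hk h0 w (eul k w)).const_mul (8 * a)).neg
  have hge : 0 ≤ g t := le_of_tendsto hlim <| by
    filter_upwards [eventually_le_atBot t] with s hs
    exact le_trans (by simp only [g]; linarith [sq_nonneg (deriv f s / f s)])
      (hmono (hs.trans ht) ht hs)
  have hp : 0 < f t := energy_pos hH hk hw (horb t ht)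
  simp only [g, sub_nonneg, div_pow] at hge
  rw [le_div_iff₀ (by positivity)] at hge
  linarith

/-- An orbit stays only a bounded time after `w`. -/
theorem escape (hH : Local D H) (hS : RealSymmetry D H (rot k)) (hN : Neg D H a)
    (ha : 0 < a) (hk : ∀ j, 0 < k j) (h0 : (0 : Cn n) ∈ D) {w : Cn n} (hw : w ≠ 0) {T : ℝ}
    (hT : 0 ≤ T) (horb : ∀ t ≤ T, rot k (t : ℂ) w ∈ D) :
    T ≤ 1 / (Real.sqrt (2 * a) * Real.sqrt (sq (H w) (eul k w))) := by
  set f := energy k H w
  set c := Real.sqrt (2 * a)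
  set h : ℝ → ℝ := fun s => (Real.sqrt (f s))⁻¹ + c * s
  have hc : 0 < c := Real.sqrt_pos.2 (by linarith)
  have hh : ∀ s ≤ T, ∃ h', h' ≤ 0 ∧ HasDerivAt h h' s := fun s hs => by
    obtain ⟨f₁, f₂, h1, -, -⟩ := energy_riccati hH hS hN (horb s hs)
    have hp : 0 < f s := energy_pos hH hk hw (horb s hs)
    have hd : deriv f s = f₁ := h1.deriv
    have hnn : 0 ≤ f₁ := hd ▸ (push_mono hH hS hN hk h0 horb).1 s hs
    have hsch := energy_schwarz hH hS hN hk h0 hw horb hs
    rw [hd] at hsch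
    refine ⟨_, ?_, (((h1.sqrt hp.ne').fun_inv (Real.sqrt_pos.2 hp).ne').add
      ((hasDerivAt_id s).const_mul c))⟩
    rw [Real.sq_sqrt hp.le, mul_one]
    set r := Real.sqrt (f s)
    have hr : 0 < r := Real.sqrt_pos.2 hp
    have hkey : 2 * c * r * f s ≤ f₁ := by
      refine (abs_le_of_sq_le_sq' ?_ hnn).2
      calc (2 * c * r * f s) ^ 2 = 4 * c ^ 2 * r ^ 2 * f s ^ 2 := by ring
        _ = 8 * a * f s ^ 3 := by
          rw [Real.sq_sqrt (by linarith : (0 : ℝ) ≤ 2 * a), Real.sq_sqrt hp.le]; ring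
        _ ≤ f₁ ^ 2 := hsch
    have : c ≤ f₁ / (2 * r) / f s := by
      rw [div_div, le_div_iff₀ (by positivity)]
      linarith
    rw [neg_div]
    linarith
  have hanti : AntitoneOn h (Icc 0 T) := by
    refine antitoneOn_of_deriv_nonpos (convex_Icc 0 T) (fun s hs => ?_) (fun s hs => ?_)
      fun s hs => ?_
    · obtain ⟨g', -, h'⟩ := hh s hs.2
      exact h'.continuousAt.continuousWithinAt
    · obtain ⟨g', -, h'⟩ := hh s (interior_subset (s := Icc 0 T) hs).2
      exact h'.differentiableAt.differentiableWithinAt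
    · obtain ⟨g', h0', h'⟩ := hh s (interior_subset (s := Icc 0 T) hs).2
      rw [h'.deriv]; exact h0'
  have hle := hanti (left_mem_Icc.2 hT) (right_mem_Icc.2 hT) hT
  have e0 : f 0 = sq (H w) (eul k w) := by simp [f, push, rot_zero]
  simp only [h, e0, mul_zero, add_zero] at hle
  have := inv_nonneg.2 (Real.sqrt_nonneg (f T))
  rw [one_div, mul_inv, ← div_eq_inv_mul, le_div_iff₀ hc]
  linarith

variable {M : Type} [TopologicalSpace M] [ChartedSpace (Cn n) M]
  [IsManifold 𝓘(ℂ, Cn n) ω M] {G : Metric (Cn n) M} {ρ : ℝ → M → M} {o : M}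
  [T2Space M] (S : Start G ρ o k)

/-- The linearised domain is bounded. -/
theorem bounded_dom (hρ : CircleSymmetry G ρ) (hG : IsKaehler G) (hN : NonposBisect G)
    (hHol : HolBound G a) (ha : 0 < a) : Bornology.IsBounded {z | S.Dom z} := by
  obtain ⟨hL, hNg⟩ := dom_local S hρ hG hN hHol
  set H := indMetric G S.map
  have h0D : S.Dom 0 := (S.ball_dom hρ (Metric.mem_ball_self S.r_pos)).1
  set R := S.r / 2
  have hR : 0 < R := half_pos S.r_pos
  have hsub : Metric.sphere (0 : Cn n) R ⊆ {z | S.Dom z} := fun z hz =>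
    (S.ball_dom hρ (mem_ball_zero_iff.2 (by
      rw [mem_sphere_zero_iff_norm] at hz; simp only [R] at hz hR; linarith))).1
  have hcont : ContinuousOn (fun w => sq (H w) (eul k w)) (Metric.sphere (0 : Cn n) R) := by
    have h1 : ContinuousOn H (Metric.sphere (0 : Cn n) R) := hL.smooth.continuousOn.mono hsub
    exact Complex.continuous_re.comp_continuousOn ((eul k).continuous.continuousOn.inner
      (h1.clm_apply (eul k).continuous.continuousOn))
  have hne : ∀ w ∈ Metric.sphere (0 : Cn n) R, w ≠ 0 := fun w hw h => by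
    rw [h, mem_sphere_zero_iff_norm, norm_zero] at hw
    linarith
  have hm : ∃ m > 0, ∀ w ∈ Metric.sphere (0 : Cn n) R, m ≤ sq (H w) (eul k w) := by
    rcases (Metric.sphere (0 : Cn n) R).eq_empty_or_nonempty with he | hne'
    · exact ⟨1, one_pos, fun w hw => absurd hw (he ▸ notMem_empty w)⟩
    · obtain ⟨w₀, hw₀, hmin⟩ := (isCompact_sphere (0 : Cn n) R).exists_isMinOn hne' hcont
      exact ⟨_, (hL.pos _ (hsub hw₀)).pos _ (eul_ne S.k_pos (hne _ hw₀)), fun w hw => hmin hw⟩
  obtain ⟨m, hm0, hmb⟩ := hm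
  set T₁ := 1 / (Real.sqrt (2 * a) * Real.sqrt m)
  set L := diag fun j => Complex.exp ((k j : ℂ) * (T₁ : ℂ))
  refine isBounded_iff_forall_norm_le.2 ⟨max R (‖L‖ * R), fun z hz => ?_⟩
  rcases le_or_gt ‖z‖ R with h | h
  · exact h.trans (le_max_left _ _)
  refine le_max_of_le_right ?_
  obtain ⟨N, hN0, hNb⟩ := (eventually_small S.k_pos z hR).exists
  have hc : ContinuousOn (fun t : ℝ => ‖rot k (t : ℂ) z‖) (Icc (-N) 0) := fun t _ =>
    (hasDerivAt_rot k z t).continuousAt.norm.continuousWithinAt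
  obtain ⟨t, ht, he⟩ := intermediate_value_Icc (neg_nonpos.2 hN0) hc
    ⟨hNb.le, by simpa [rot_zero] using h.le⟩
  set w := rot k (t : ℂ) z
  have hw : w ∈ Metric.sphere (0 : Cn n) R := mem_sphere_zero_iff_norm.2 he
  have hz' : rot k ((-t : ℝ) : ℂ) w = z := by
    rw [← rot_add]; simp [rot_zero]
  have horb : ∀ s ≤ -t, rot k (s : ℂ) w ∈ {z | S.Dom z} := fun s hs => by
    have := dom_back S hρ hz (t := s + t) (by linarith)
    rwa [Complex.ofReal_add, rot_add] at this
  have hT : -t ≤ T₁ := by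
    refine (escape hL (S.symmetry hρ) hNg ha S.k_pos h0D (hne w hw) (neg_nonneg.2 ht.2) horb).trans ?_
    have : 0 < Real.sqrt (2 * a) := Real.sqrt_pos.2 (by linarith)
    have := Real.sqrt_pos.2 hm0
    exact one_div_le_one_div_of_le (by positivity)
      (mul_le_mul_of_nonneg_left (Real.sqrt_le_sqrt (hmb w hw)) (by positivity))
  calc ‖z‖ = ‖rot k ((-t : ℝ) : ℂ) w‖ := by rw [hz']
    _ ≤ ‖rot k (T₁ : ℂ) w‖ := norm_rot_mono k hT w
    _ ≤ ‖L‖ * ‖w‖ := L.le_opNorm w
    _ = ‖L‖ * R := by rw [mem_sphere_zero_iff_norm.1 hw]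

end Vale.Agent.P250.Sink
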