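import Vale.Agent.P253.Circle.Extend

/-!
P250, circle symmetry with a sink: curvature hypotheses and their invariance under immersions.
-/

open scoped Manifold ContDiff InnerProductSpace Topology
open Complex Set Filter

noncomputable section

namespace Vale.Agent.P250.Sink

open Vale.Agent.Results.P253.SymmetricDomains (bisect dz ddbar)
open Vale.Agent.P253.Circle

variable {E : Type} [NormedAddCommGroup E] [InnerProductSpace ℂ E] [CompleteSpace E]
  {M : Type} [TopologicalSpace M] [ChartedSpace E M]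

/-- Nonpositive holomorphic bisectional curvature. -/
def NonposBisect (G : Metric E M) : Prop :=
  ∀ x : M, ∀ y ∈ (chartAt E x).target, ∀ u w : E, bisect (rep G (chartAt E x)) y u w ≤ 0

/-- Holomorphic sectional curvature at most `-a`. -/
def HolBound (G : Metric E M) (a : ℝ) : Prop :=
  ∀ x : M, ∀ y ∈ (chartAt E x).target, ∀ u : E,
    bisect (rep G (chartAt E x)) y u u ≤ -a * sq (rep G (chartAt E x) y) u ^ 2

end Vale.Agent.P250.Sink

namespace Vale.Agent.P250.Sink

open Vale.Agent.Results.P253.SymmetricDomains (bisect dz ddbar)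
open Vale.Agent.P253.Circle

variable {n : ℕ}

/-- The two curvature bounds for a metric on a coordinate domain. -/
def Neg (U : Set (Cn n)) (H : Cn n → (Cn n →L[ℂ] Cn n)) (a : ℝ) : Prop :=
  ∀ z ∈ U, (∀ u v, bisect H z u v ≤ 0) ∧ ∀ u, bisect H z u u ≤ -a * sq (H z) u ^ 2

theorem bisect_congr {H H' : Cn n → (Cn n →L[ℂ] Cn n)} {z : Cn n} (h : H =ᶠ[𝓝 z] H')
    (u v : Cn n) : bisect H z u v = bisect H' z u v := by
  have e : fderiv ℝ H =ᶠ[𝓝 z] fderiv ℝ H' :=
    h.eventuallyEq_nhds.mono fun q hq => hq.fderiv_eq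
  simp only [bisect, ddbar, dz, e.self_of_nhds, e.fderiv_eq, h.self_of_nhds]

/-- For a change of coordinates the curvature of the pull back is at most the original one. -/
theorem pullG_upper {D V : Set (Cn n)} {G : Cn n → (Cn n →L[ℂ] Cn n)} {f : Cn n → Cn n}
    (hG : Local D G) (hV : IsOpen V) (hf : DifferentiableOn ℂ f V) (hfD : MapsTo f V D)
    (hinj : ∀ z ∈ V, Function.Injective (fderiv ℂ f z)) {z : Cn n} (hz : z ∈ V) (u v : Cn n) :
    bisect (pullG f G) z u v ≤ bisect G (f z) (fderiv ℂ f z u) (fderiv ℂ f z v) := by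
  have hsm := contDiffOn_holo hV hf
  set F' := fun q (hq : q ∈ V) => (LinearEquiv.ofInjectiveEndo (fderiv ℂ f q : Cn n →ₗ[ℂ] Cn n)
    (hinj q hq)).toContinuousLinearEquiv
  have hst : HasStrictFDerivAt f (F' z hz : Cn n →L[ℂ] Cn n) z :=
    ((hsm.contDiffAt (hV.mem_nhds hz)).hasStrictFDerivAt (by simp)).congr_fderiv
      (ContinuousLinearMap.ext fun _ => rfl)
  set e := hst.toOpenPartialHomeomorph f
  have he : (e : Cn n → Cn n) = f := rfl
  set W := e.target ∩ e.symm ⁻¹' V
  have hW : IsOpen W := e.isOpen_inter_preimage_symm hV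
  have hes : z ∈ e.source := hst.mem_toOpenPartialHomeomorph_source
  have hsymm : e.symm (f z) = z := e.left_inv hes
  have hzW : f z ∈ W := ⟨e.map_source hes, by show e.symm (f z) ∈ V; rw [hsymm]; exact hz⟩
  have hd : ∀ (y : Cn n) (hy : y ∈ W),
      HasFDerivAt e.symm ((F' _ hy.2).symm : Cn n →L[ℂ] Cn n) y := fun y hy => by
    refine e.hasFDerivAt_symm hy.1 ?_
    rw [he]
    exact (hf.differentiableAt (hV.mem_nhds hy.2)).hasFDerivAt.congr_fderiv
      (ContinuousLinearMap.ext fun _ => rfl)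
  have hL := pullG_local hG hV hf hfD hinj
  have hdW : DifferentiableOn ℂ e.symm W := fun y hy =>
    (hd y hy).differentiableAt.differentiableWithinAt
  have hmW : MapsTo e.symm W V := fun y hy => hy.2
  have hiW : ∀ y ∈ W, Function.Injective (fderiv ℂ e.symm y) := fun y hy => by
    rw [(hd y hy).fderiv]
    exact (F' _ hy.2).symm.injective
  have key : ∀ y ∈ W, pullG e.symm (pullG f G) y = G y := fun y hy => by
    refine ContinuousLinearMap.ext fun b => ext_inner_left ℂ fun c => ?_
    have h1 : ∀ w, fderiv ℂ f (e.symm y) (fderiv ℂ e.symm y w) = w := fun w => by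
      rw [(hd y hy).fderiv]
      exact (F' _ hy.2).apply_symm_apply w
    rw [inner_pullG, inner_pullG, h1, h1, show f (e.symm y) = y from e.right_inv hy.1]
  have h := pullG_bisect hL hW hdW hmW hiW hzW (fderiv ℂ f z u) (fderiv ℂ f z v)
  rw [bisect_congr (H' := G) (mem_of_superset (hW.mem_nhds hzW) key), hsymm] at h
  have h2 : ∀ w, fderiv ℂ e.symm (f z) (fderiv ℂ f z w) = w := fun w => by
    rw [(hd _ hzW).fderiv]
    refine (F' _ hzW.2).injective ?_
    rw [ContinuousLinearEquiv.coe_coe, ContinuousLinearEquiv.apply_symm_apply]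
    show _ = fderiv ℂ f (e.symm (f z)) w
    rw [hsymm]
  rwa [h2, h2] at h

variable {M : Type} [TopologicalSpace M] [ChartedSpace (Cn n) M] [IsManifold 𝓘(ℂ, Cn n) ω M]
  {G : Metric (Cn n) M} {F : Cn n → M} {a : ℝ}

/-- An immersion of an open set induces a Kaehler metric with the same curvature bounds. -/
theorem indMetric_neg (hG : IsKaehler G) (hN : NonposBisect G) (hH : HolBound G a)
    {U : Set (Cn n)} (hU : IsOpen U) (h : ∀ w ∈ U, Imm n F w) :
    Local U (indMetric G F) ∧ Neg U (indMetric G F) a := by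
  have key : ∀ w ∈ U, ∃ V, IsOpen V ∧ w ∈ V ∧ Local V (indMetric G F) ∧
      (∀ u v, bisect (indMetric G F) w u v ≤ 0) ∧
      ∀ u, bisect (indMetric G F) w u u ≤ -a * sq (indMetric G F w) u ^ 2 := by
    intro w hw
    set x := F w
    have hev : ∀ᶠ q in 𝓝 w, F q ∈ (ch n x).source :=
      (h w hw).1 ((ch n x).open_source.mem_nhds (mem_chart_source _ x))
    obtain ⟨V, hVU, hV, hwV⟩ := mem_nhds_iff.1 (hev.and (hU.mem_nhds hw))
    set f := fun q => ch n x (F q)
    have hf : DifferentiableOn ℂ f V := fun q hq =>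
      ((h q (hVU hq).2).read_diff (hVU hq).1).differentiableWithinAt
    have hfD : MapsTo f V (ch n x).target := fun q hq => (ch n x).map_source (hVU hq).1
    have hinj : ∀ q ∈ V, Function.Injective (fderiv ℂ f q) :=
      fun q hq => ((h q (hVU hq).2).read_deriv (hVU hq).1).2
    have hP := pullG_local (hG.chartMetric x) hV hf hfD hinj
    have he : ∀ q ∈ V, indMetric G F q = pullG f (rp G x) q :=
      fun q hq => indMetric_eq (h q (hVU hq).2) (hVU hq).1
    have hee : ∀ q ∈ V, indMetric G F =ᶠ[𝓝 q] pullG f (rp G x) := fun q hq =>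
      mem_of_superset (hV.mem_nhds hq) he
    have hb : ∀ u v, bisect (indMetric G F) w u v ≤
        bisect (rp G x) (f w) (fderiv ℂ f w u) (fderiv ℂ f w v) := fun u v => by
      rw [bisect_congr (hee w hwV)]
      exact pullG_upper (hG.chartMetric x) hV hf hfD hinj hwV u v
    refine ⟨V, hV, hwV, ⟨hV, hP.smooth.congr he, fun q hq => he q hq ▸ hP.pos q hq,
      fun q hq u v => ?_⟩, fun u v => (hb u v).trans (hN x _ (hfD hwV) _ _), fun u => ?_⟩
    · simp only [dz, (hee q hq).fderiv_eq]
      exact hP.sym q hq u v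
    · rw [he w hwV, sq_pullG]
      exact (hb u u).trans (hH x _ (hfD hwV) _)
  refine ⟨⟨hU, fun w hw => ?_, fun w hw => ?_, fun w hw => ?_⟩, fun w hw => ?_⟩
  · obtain ⟨V, hV, hwV, hL, -⟩ := key w hw
    exact (hL.smooth.contDiffAt (hV.mem_nhds hwV)).contDiffWithinAt
  · obtain ⟨V, -, hwV, hL, -⟩ := key w hw
    exact hL.pos w hwV
  · obtain ⟨V, -, hwV, hL, -⟩ := key w hw
    exact hL.sym w hwV
  · obtain ⟨V, -, -, -, hb⟩ := key w hw
    exact hb

end Vale.Agent.P250.Sink
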