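import Vale.Agent.P250.Sink.Orbit

/-!
P250: the maximal linearised domain is invariant under the backward flow; the extension is
injective and open.
-/

open scoped Manifold ContDiff InnerProductSpace Topology
open Complex Set Filter

noncomputable section

namespace Vale.Agent.P250.Sink

open Vale.Agent.Results.P253.SymmetricDomains (rot)
open Vale.Agent.P253.Circle

variable {n : ℕ} {M : Type} [TopologicalSpace M] [ChartedSpace (Cn n) M]
  [IsManifold 𝓘(ℂ, Cn n) ω M] {G : Metric (Cn n) M} {ρ : ℝ → M → M} {o : M} {k : Fin n → ℕ}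
  [T2Space M] (S : Start G ρ o k) (hρ : CircleSymmetry G ρ)

/-- The linearised part of `M`. -/
def image : Set M := S.map '' {z | S.Dom z}

/-- The inverse of the extension. -/
def inv : M → Cn n := Function.invFunOn S.map {z | S.Dom z}

include hρ

theorem ext_mono {w : Cn n} {N N' : ℝ} (h : S.Ext w N) (h0 : 0 ≤ N') (hN : N' ≤ N) :
    S.Ext w N' := by
  obtain ⟨U, hU, hwU, hUb, F, hF⟩ := h
  obtain ⟨-, γ, hγ, hγ0, -⟩ := hF w hwU
  set T := {t : ℝ | t ∈ Icc 0 N' ∧ ∀ s ∈ Icc (0 : ℝ) t, S.Ext w s}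
  have hT0 : (0 : ℝ) ∈ T := ⟨left_mem_Icc.2 h0, fun s hs => by
    rw [le_antisymm hs.2 hs.1]; exact S.ext_zero hρ (hUb hwU)⟩
  have hbdd : BddAbove T := ⟨N', fun t ht => ht.1.2⟩
  set b := sSup T
  have hb : b ∈ Icc 0 N' := ⟨le_csSup hbdd hT0, csSup_le ⟨0, hT0⟩ fun t ht => ht.1.2⟩
  obtain ⟨V, hV, δ, hδ, hstep⟩ := S.step hρ (γ b)
  obtain ⟨η, hη, hVη⟩ := Metric.mem_nhdsWithin_iff.1 (hγ.1 b ⟨hb.1, hb.2.trans hN⟩ hV)
  obtain ⟨t, ht, hbt⟩ := exists_lt_of_lt_csSup ⟨0, hT0⟩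
    (show b - min η δ < b by linarith [lt_min hη hδ])
  have htb : t ≤ b := le_csSup hbdd ht
  have hγt : γ t ∈ V := hVη ⟨by
    rw [Metric.mem_ball, Real.dist_eq, abs_lt]
    constructor <;> linarith [min_le_left η δ], ⟨ht.1.1, ht.1.2.trans hN⟩⟩
  have hext : ∀ τ ∈ Icc (0 : ℝ) δ, S.Ext w (t + τ) :=
    hstep w t ht.1.1 (ht.2 t ⟨ht.1.1, le_rfl⟩) fun γ' h' h0' => by
      have e := IntCurve.unique hρ h' (hγ.mono le_rfl (ht.1.2.trans hN)) (left_mem_Icc.2 ht.1.1)
        (h0'.trans hγ0.symm) (right_mem_Icc.2 ht.1.1)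
      rw [e]; exact hγt
  have hmem : min (t + δ) N' ∈ T := by
    refine ⟨⟨le_min (by linarith [ht.1.1]) h0, min_le_right _ _⟩, fun s hs => ?_⟩
    rcases le_total s t with h' | h'
    · exact ht.2 s ⟨hs.1, h'⟩
    · simpa using hext (s - t) ⟨sub_nonneg.2 h', by linarith [hs.2, min_le_left (t + δ) N']⟩
  refine hmem.2 N' ⟨h0, le_min ?_ le_rfl⟩
  have := le_csSup hbdd hmem
  by_contra hlt
  push Not at hlt
  rw [min_eq_left hlt.le] at this
  linarith [min_le_right η δ]

theorem dom_back {z : Cn n} (hz : S.Dom z) {t : ℝ} (ht : t ≤ 0) : S.Dom (rot k (t : ℂ) z) := by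
  obtain ⟨N, hN, hE⟩ := hz
  have e : ∀ M : ℝ, rot k ((-M : ℝ) : ℂ) (rot k (t : ℂ) z) = rot k ((t - M : ℝ) : ℂ) z := fun M => by
    rw [← rot_add]; push_cast; ring_nf
  have hb : ‖rot k ((-N : ℝ) : ℂ) z‖ < S.r := by
    obtain ⟨U, -, hwU, hUb, -⟩ := hE
    exact mem_ball_zero_iff.1 (hUb hwU)
  rcases le_total 0 (N + t) with h | h
  · refine ⟨N + t, h, ?_⟩
    rw [e, show t - (N + t) = -N by ring]
    exact ext_mono S hρ hE h (by linarith)
  · exact (S.ball_dom hρ (mem_ball_zero_iff.2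
      ((norm_rot_mono k (by linarith) z).trans_lt hb))).1

theorem orbit_back {z : Cn n} (hz : S.Dom z) (T : ℝ) :
    IntCurve n ρ (fun t => S.map (rot k (t : ℂ) z)) T 0 :=
  orbit_int hρ fun _ ht => ⟨S.imm_map hρ (dom_back S hρ hz ht.2), fun s =>
    (S.equivariant hρ (dom_back S hρ hz ht.2) s).2.symm⟩

theorem injOn_map : InjOn S.map {z | S.Dom z} := by
  intro z hz z' hz' h
  obtain ⟨N, ⟨hN, hb⟩, -, hb'⟩ :=
    ((eventually_small S.k_pos z S.r_pos).and (eventually_small S.k_pos z' S.r_pos)).exists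
  have e := IntCurve.unique hρ (orbit_back S hρ hz (-N)) (orbit_back S hρ hz' (-N))
    (right_mem_Icc.2 (by linarith)) (by simpa [rot_zero] using h) (left_mem_Icc.2 (by linarith))
  simp only at e
  rw [(S.ball_dom hρ (mem_ball_zero_iff.2 hb)).2, (S.ball_dom hρ (mem_ball_zero_iff.2 hb')).2] at e
  have e' := congrArg (rot k (N : ℂ))
    (S.inj (mem_ball_zero_iff.2 hb) (mem_ball_zero_iff.2 hb') e)
  rw [← rot_add, ← rot_add] at e'
  simpa [rot_zero] using e'

theorem inv_map {z : Cn n} (hz : S.Dom z) : inv S (S.map z) = z :=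
  (injOn_map S hρ) (Function.invFunOn_mem ⟨z, hz, rfl⟩) hz (Function.invFunOn_eq ⟨z, hz, rfl⟩)

omit hρ [IsManifold 𝓘(ℂ, Cn n) ω M] [T2Space M] in
theorem map_inv {q : M} (hq : q ∈ image S) : S.Dom (inv S q) ∧ S.map (inv S q) = q := by
  obtain ⟨z, hz, rfl⟩ := hq
  exact ⟨Function.invFunOn_mem (f := S.map) ⟨z, hz, rfl⟩,
    Function.invFunOn_eq (f := S.map) ⟨z, hz, rfl⟩⟩

theorem local_inverse {z : Cn n} (hz : S.Dom z) {x : M} (hx : S.map z ∈ (ch n x).source) :
    ∀ᶠ y in 𝓝 (ch n x (S.map z)), (ch n x).symm y ∈ image S ∧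
      DifferentiableAt ℂ (fun p => inv S ((ch n x).symm p)) y := by
  set f : Cn n → Cn n := fun w => ch n x (S.map w)
  obtain ⟨V, hVs, hV, hzV⟩ := mem_nhds_iff.1 (Eventually.and
    ((S.imm_map hρ hz).1 ((ch n x).open_source.mem_nhds hx)) ((S.dom_open hρ).mem_nhds hz))
  have hf : DifferentiableOn ℂ f V := fun w hw =>
    ((S.imm_map hρ (hVs hw).2).read_diff (hVs hw).1).differentiableWithinAt
  have hinj : ∀ w ∈ V, Function.Injective (fderiv ℂ f w) := fun w hw =>
    ((S.imm_map hρ (hVs hw).2).read_deriv (hVs hw).1).2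
  set F' := fun w (hw : w ∈ V) => (LinearEquiv.ofInjectiveEndo (fderiv ℂ f w : Cn n →ₗ[ℂ] Cn n)
    (hinj w hw)).toContinuousLinearEquiv
  have hst : HasStrictFDerivAt f (F' z hzV : Cn n →L[ℂ] Cn n) z :=
    (((contDiffOn_holo hV hf).contDiffAt (hV.mem_nhds hzV)).hasStrictFDerivAt (by simp)).congr_fderiv
      (ContinuousLinearMap.ext fun _ => rfl)
  set e := hst.toOpenPartialHomeomorph f
  have he : (e : Cn n → Cn n) = f := rfl
  have hes : z ∈ e.source := hst.mem_toOpenPartialHomeomorph_source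
  set W := e.target ∩ e.symm ⁻¹' V
  have hW : IsOpen W := e.isOpen_inter_preimage_symm hV
  have hzW : f z ∈ W := ⟨e.map_source hes, by
    show e.symm (e z) ∈ V
    rw [e.left_inv hes]; exact hzV⟩
  have key : ∀ y ∈ W, (ch n x).symm y = S.map (e.symm y) := fun y hy => by
    rw [← (ch n x).left_inv (hVs hy.2).1]
    congr 1
    exact (e.right_inv hy.1).symm
  filter_upwards [hW.mem_nhds hzW] with y hy
  refine ⟨⟨e.symm y, (hVs hy.2).2, (key y hy).symm⟩, ?_⟩
  have hd := e.hasFDerivAt_symm hy.1 (f' := F' _ hy.2) (by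
    rw [he]
    exact (hf.differentiableAt (hV.mem_nhds hy.2)).hasFDerivAt.congr_fderiv
      (ContinuousLinearMap.ext fun _ => rfl))
  refine (hd.congr_of_eventuallyEq ?_).differentiableAt
  filter_upwards [hW.mem_nhds hy] with p hp
  rw [key p hp, inv_map S hρ (hVs hp.2).2]

theorem isOpen_image : IsOpen (image S) := by
  rw [isOpen_iff_mem_nhds]
  rintro _ ⟨z, hz, rfl⟩
  set x := S.map z
  have hx := mem_chart_source (Cn n) x
  filter_upwards [(ch n x).open_source.mem_nhds hx,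
    ((ch n x).continuousAt hx).eventually (local_inverse S hρ hz hx)] with q h1 h2
  simpa [(ch n x).left_inv h1] using h2.1

theorem inv_holo (x : M) : ContDiffOn ℂ ∞ (fun p => inv S ((ch n x).symm p))
    ((ch n x).target ∩ (ch n x).symm ⁻¹' image S) := by
  refine contDiffOn_holo ((ch n x).isOpen_inter_preimage_symm (isOpen_image S hρ)) fun p hp => ?_
  obtain ⟨h1, h2⟩ := map_inv S hp.2
  have h := (local_inverse S hρ h1 (x := x)
    (h2.symm ▸ (ch n x).map_target hp.1)).self_of_nhds.2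
  rw [h2, (ch n x).right_inv hp.1] at h
  exact h.differentiableWithinAt

theorem inv_contMDiff : ContMDiffOn 𝓘(ℂ, Cn n) 𝓘(ℂ, Cn n) ∞ (inv S) (image S) := by
  intro q hq
  refine ContMDiffAt.contMDiffWithinAt ?_
  have hqs := mem_chart_source (Cn n) q
  have hsm := (inv_holo S hρ q).contDiffAt
    (((ch n q).isOpen_inter_preimage_symm (isOpen_image S hρ)).mem_nhds
      ⟨(ch n q).map_source hqs, by rw [mem_preimage, (ch n q).left_inv hqs]; exact hq⟩)
  rw [contMDiffAt_iff]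
  refine ⟨?_, by simpa [Function.comp_def, ch, chartAt_self_eq] using hsm.contDiffWithinAt (s := univ)⟩
  refine (ContinuousAt.comp (g := fun p => inv S ((ch n q).symm p)) (f := ch n q)
    hsm.continuousAt ((ch n q).continuousAt hqs)).congr ?_
  filter_upwards [(ch n q).open_source.mem_nhds hqs] with w hw
  simp [(ch n q).left_inv hw]

theorem continuousAt_inv {q : M} (hq : q ∈ image S) : ContinuousAt (inv S) q :=
  (inv_contMDiff S hρ).continuousOn.continuousAt ((isOpen_image S hρ).mem_nhds hq)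

end Vale.Agent.P250.Sink
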