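import Vale.Agent.P250.Sink.Bound

/-!
P250: the linearisation identifies the manifold with a bounded domain.
-/

open scoped Manifold ContDiff InnerProductSpace Topology
open Complex Set Filter

noncomputable section

namespace Vale.Agent.P250.Sink

open Vale.Agent.P253.Circle

variable {n : ℕ} {M : Type} [TopologicalSpace M] [T2Space M] [ConnectedSpace M]
  [ChartedSpace (Cn n) M] [IsManifold 𝓘(ℂ, Cn n) ω M] {G : Metric (Cn n) M} {ρ : ℝ → M → M} {o : M}
  {a : ℝ}

omit [ConnectedSpace M] [T2Space M] in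
theorem smooth_of_imm {F : Cn n → M} {U : Set (Cn n)} (hU : IsOpen U) (h : ∀ z ∈ U, Imm n F z) :
    ContMDiffOn 𝓘(ℂ, Cn n) 𝓘(ℂ, Cn n) ∞ F U := by
  intro z hz
  refine ContMDiffAt.contMDiffWithinAt ?_
  rw [contMDiffAt_iff]
  refine ⟨(h z hz).1, ?_⟩
  obtain ⟨V, hVs, hV, hzV⟩ := mem_nhds_iff.1 (Filter.inter_mem (hU.mem_nhds hz)
    ((h z hz).1 ((ch n (F z)).open_source.mem_nhds (mem_chart_source (Cn n) (F z)))))
  have hf : DifferentiableOn ℂ (fun w => ch n (F z) (F w)) V := fun w hw =>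
    ((h w (hVs hw).1).read_diff (hVs hw).2).differentiableWithinAt
  simpa [Function.comp_def, ch, chartAt_self_eq] using
    ((contDiffOn_holo hV hf).contDiffAt (hV.mem_nhds hzV)).contDiffWithinAt (s := univ)

/-- The conclusion: a biholomorphism onto a bounded domain. -/
theorem bounded_pos (ha : 0 < a) (hG : IsKaehler G) (hN : NonposBisect G) (hHol : HolBound G a)
    (hC : Complete G) (hρ : CircleSymmetry G ρ) {k : Fin n → ℕ} (S : Start G ρ o k) :
    ∃ (Ω : Set (Cn n)) (f : M → Cn n) (g : Cn n → M),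
      IsOpen Ω ∧ IsConnected Ω ∧ Bornology.IsBounded Ω ∧ range f = Ω ∧
      ContMDiff 𝓘(ℂ, Cn n) 𝓘(ℂ, Cn n) ∞ f ∧ ContMDiffOn 𝓘(ℂ, Cn n) 𝓘(ℂ, Cn n) ∞ g Ω ∧
      ∀ x, g (f x) = x := by
  have hall : image S = univ := onto S hρ hG hN hHol hC
  have hsm : ContMDiff 𝓘(ℂ, Cn n) 𝓘(ℂ, Cn n) ∞ (inv S) :=
    contMDiffOn_univ.1 (hall ▸ inv_contMDiff S hρ)
  have hmi : ∀ q, S.Dom (inv S q) ∧ S.map (inv S q) = q := fun q =>
    map_inv S (hall ▸ mem_univ q)
  have hr : range (inv S) = {z | S.Dom z} :=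
    Subset.antisymm (range_subset_iff.2 fun q => (hmi q).1) fun z hz => ⟨S.map z, inv_map S hρ hz⟩
  exact ⟨{z | S.Dom z}, inv S, S.map, S.dom_open hρ, hr ▸ isConnected_range hsm.continuous,
    bounded_dom S hρ hG hN hHol ha, hr, hsm,
    smooth_of_imm (S.dom_open hρ) (fun z hz => S.imm_map hρ hz), fun q => (hmi q).2⟩

/-- The main theorem. -/
theorem bounded (ha : 0 < a) (hG : IsKaehler G) (hN : NonposBisect G) (hHol : HolBound G a)
    (hC : Complete G) (hρ : CircleSymmetry G ρ) (hsink : Sink n (Cn n) ρ o) :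
    ∃ (Ω : Set (Cn n)) (f : M → Cn n) (g : Cn n → M),
      IsOpen Ω ∧ IsConnected Ω ∧ Bornology.IsBounded Ω ∧ range f = Ω ∧
      ContMDiff 𝓘(ℂ, Cn n) 𝓘(ℂ, Cn n) ∞ f ∧ ContMDiffOn 𝓘(ℂ, Cn n) 𝓘(ℂ, Cn n) ∞ g Ω ∧
      ∀ x, g (f x) = x := by
  obtain ⟨hfix, b, k, hk, hlin⟩ := hsink
  rcases hk with hk | hk
  · obtain ⟨S⟩ := start_of_weights hρ hfix b (k := fun j => (k j).toNat)
      (fun j => by simpa using hk j) fun s j => by
        refine (hlin s j).trans ?_
        have e : (((k j).toNat : ℕ) : ℂ) = (k j : ℂ) := by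
          rw [← Int.cast_natCast, Int.toNat_of_nonneg (hk j).le]
        rw [e]
    exact bounded_pos ha hG hN hHol hC hρ S
  · obtain ⟨S⟩ := start_of_weights (reverse_symmetry hρ) (fun s => hfix (-s)) b
      (k := fun j => (-k j).toNat) (fun j => by simpa using hk j) fun s j => by
        refine (hlin (-s) j).trans ?_
        congr 2
        have e : (((-k j).toNat : ℕ) : ℂ) = -(k j : ℂ) := by
          rw [← Int.cast_natCast, Int.toNat_of_nonneg (neg_nonneg.2 (hk j).le), Int.cast_neg]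
        rw [e]
        push_cast
        ring
    exact bounded_pos ha hG hN hHol hC (reverse_symmetry hρ) S

end Vale.Agent.P250.Sink
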