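import Vale.Agent.P250.Sink.Dom

/-!
P250: the backward flow contracts lengths, hence the linearised part is all of `M`.
-/

open scoped Manifold ContDiff InnerProductSpace Topology
open Complex Set Filter

noncomputable section

namespace Vale.Agent.P250.Sink

open Vale.Agent.Results.P253.SymmetricDomains (rot)
open Vale.Agent.P253.Circle

variable {n : ℕ} {M : Type} [TopologicalSpace M] [ChartedSpace (Cn n) M]
  [IsManifold 𝓘(ℂ, Cn n) ω M] {G : Metric (Cn n) M} {ρ : ℝ → M → M} {o : M} {k : Fin n → ℕ}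
  [T2Space M] {a : ℝ} (S : Start G ρ o k) (hρ : CircleSymmetry G ρ) (hG : IsKaehler G)
  (hN : NonposBisect G) (hHol : HolBound G a)

include hρ hG hN hHol

theorem dom_local : Local {z | S.Dom z} (indMetric G S.map) ∧
    Neg {z | S.Dom z} (indMetric G S.map) a :=
  indMetric_neg hG hN hHol (S.dom_open hρ) fun _ hz => S.imm_map hρ hz

theorem push_le {w v : Cn n} (hw : S.Dom w) {t : ℝ} (ht : t ≤ 0) :
    push k (indMetric G S.map) w v t ≤ push k (indMetric G S.map) w v 0 := by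
  obtain ⟨hL, hNg⟩ := dom_local S hρ hG hN hHol
  exact (push_mono hL (S.symmetry hρ) hNg S.k_pos (S.ball_dom hρ (Metric.mem_ball_self S.r_pos)).1
    (b := 0) fun s hs => dom_back S hρ hw hs).2 ht (self_mem_Iic (a := (0 : ℝ))) ht

theorem shrink {c : ℝ → Cn n} (hc : ContDiff ℝ 1 c) (hm : ∀ σ, S.Dom (c σ)) {t : ℝ} (ht : t ≤ 0) :
    gd G (S.map (rot k (t : ℂ) (c 0))) (S.map (rot k (t : ℂ) (c 1))) ≤ clen G (S.map ∘ c) := by
  set L : Cn n →L[ℂ] Cn n := diag fun j => Complex.exp ((k j : ℂ) * (t : ℂ))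
  have hL : ∀ z, rot k (t : ℂ) z = L z := fun z => rfl
  have hc' : ContDiff ℝ 1 fun σ => L (c σ) := (L.restrictScalars ℝ).contDiff.comp hc
  have hd : ∀ σ, deriv (fun σ => L (c σ)) σ = L (deriv c σ) := fun σ =>
    ((L.restrictScalars ℝ).hasFDerivAt.comp_hasDerivAt σ
      (hc.differentiable one_ne_zero σ).hasDerivAt).deriv
  obtain ⟨h1, s1⟩ := curve_push G (F := S.map) (S.dom_open hρ) (fun z hz => S.imm_map hρ hz) hc'
    fun σ => dom_back S hρ (hm σ) ht
  obtain ⟨h2, s2⟩ := curve_push G (F := S.map) (S.dom_open hρ) (fun z hz => S.imm_map hρ hz) hc hm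
  refine (gd_le h1 rfl rfl).trans (intervalIntegral.integral_mono_on zero_le_one
    ((speed_continuous hG h1).intervalIntegrable _ _)
    ((speed_continuous hG h2).intervalIntegrable _ _) fun σ _ => ?_)
  rw [s1, s2, hd]
  refine Real.sqrt_le_sqrt ?_
  have h := push_le S hρ hG hN hHol (v := deriv c σ) (hm σ) ht
  simpa [push, rot_zero, hL] using h

theorem time_lip {w : Cn n} (hw : S.Dom w) {t₁ t₂ : ℝ} (h12 : t₁ ≤ t₂) (h2 : t₂ ≤ 0) :
    gd G (S.map (rot k (t₁ : ℂ) w)) (S.map (rot k (t₂ : ℂ) w)) ≤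
      Real.sqrt (sq (indMetric G S.map w) (eul k w)) * (t₂ - t₁) := by
  set H := indMetric G S.map
  set θ : ℝ → ℝ := fun s => t₁ + (t₂ - t₁) * Real.smoothTransition s
  have hθ : ContDiff ℝ 1 θ :=
    contDiff_const.add (contDiff_const.mul Real.smoothTransition.contDiff)
  have hθI : ∀ s, θ s ≤ 0 := fun s => by
    have := mul_le_mul_of_nonneg_left (Real.smoothTransition.le_one s) (sub_nonneg.2 h12)
    simp only [θ]
    linarith
  have hm : Monotone θ := fun p q hpq => by
    have := mul_le_mul_of_nonneg_left (Real.smoothTransition.monotone hpq) (sub_nonneg.2 h12)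
    simp only [θ]
    linarith
  set c : ℝ → Cn n := fun s => rot k (θ s : ℂ) w
  have hcd : ∀ s, HasDerivAt c (deriv θ s • eul k (rot k (θ s : ℂ) w)) s := fun s =>
    (hasDerivAt_rot k w (θ s)).scomp s (hθ.differentiable one_ne_zero s).hasDerivAt
  have hc : ContDiff ℝ 1 c := contDiff_one_iff_deriv.2 ⟨fun s => (hcd s).differentiableAt, by
    rw [show deriv c = fun s => deriv θ s • eul k (rot k (θ s : ℂ) w) from
      funext fun s => (hcd s).deriv]
    exact (hθ.continuous_deriv le_rfl).smul ((eul k).continuous.comp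
      (continuous_iff_continuousAt.2 fun s => (hcd s).continuousAt))⟩
  obtain ⟨hcur, hsp⟩ := curve_push G (F := S.map) (S.dom_open hρ) (fun z hz => S.imm_map hρ hz) hc
    fun s => dom_back S hρ hw (hθI s)
  refine (gd_le hcur (by simp [c, θ]) (by simp [c, θ])).trans ?_
  set C := Real.sqrt (sq (H w) (eul k w))
  have hle : ∀ s, speed G (S.map ∘ c) s ≤ deriv θ s * C := fun s => by
    rw [hsp, (hcd s).deriv, sqrt_sq_smul _ hm.deriv_nonneg]
    refine mul_le_mul_of_nonneg_left (Real.sqrt_le_sqrt ?_) hm.deriv_nonneg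
    have h := push_le S hρ hG hN hHol (v := eul k w) hw (hθI s)
    simpa [push, rot_zero, rot_eul] using h
  calc clen G (S.map ∘ c) ≤ ∫ s in (0 : ℝ)..1, deriv θ s * C :=
        intervalIntegral.integral_mono_on zero_le_one
          ((speed_continuous hG hcur).intervalIntegrable _ _)
          (((hθ.continuous_deriv le_rfl).mul continuous_const).intervalIntegrable _ _)
          fun s _ => hle s
    _ = _ := by
      rw [intervalIntegral.integral_mul_const, intervalIntegral.integral_deriv_eq_sub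
        (fun s _ => hθ.differentiable one_ne_zero s)
        ((hθ.continuous_deriv le_rfl).intervalIntegrable _ _)]
      simp [θ]
      ring

omit hρ hG hN hHol [IsManifold 𝓘(ℂ, Cn n) ω M] [T2Space M] in
theorem shift_mem {z : Cn n} {u : ℝ} (hu : 0 ≤ u) (h : S.Ext z u) :
    S.Dom (rot k (u : ℂ) z) := ⟨u, hu, by rw [← rot_add]; simpa [rot_zero] using h⟩

theorem onto [ConnectedSpace M] (hC : Complete G) : image S = univ := by
  by_contra hne
  obtain ⟨x, hx⟩ := (ne_univ_iff_exists_notMem _).1 hne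
  obtain ⟨γ, hγ, hγ0, hγ1⟩ := exists_curve (n := n) hG o x
  have hball := fun {z : Cn n} (hz : z ∈ Metric.ball (0 : Cn n) S.r) => S.ball_dom hρ hz
  obtain ⟨h0D, h0e⟩ := hball (Metric.mem_ball_self S.r_pos)
  have h0o : S.map 0 = o := h0e.trans S.zero
  set Z := Icc (0 : ℝ) 1 ∩ γ ⁻¹' (image S)ᶜ
  have hZc : IsClosed Z := isClosed_Icc.inter ((isOpen_image S hρ).isClosed_compl.preimage hγ.1)
  have hZb : BddBelow Z := ⟨0, fun s hs => hs.1.1⟩
  set τ := sInf Z
  have hτ : τ ∈ Z :=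
    hZc.csInf_mem ⟨1, right_mem_Icc.2 zero_le_one, by rwa [mem_preimage, hγ1]⟩ hZb
  have hτ0 : 0 < τ := lt_of_le_of_ne hτ.1.1 fun h => hτ.2 ⟨0, h0D, by rw [← h, hγ0, h0o]⟩
  have hin : ∀ s ∈ Ico 0 τ, γ s ∈ image S := fun s hs => by
    by_contra h
    exact absurd (csInf_le hZb ⟨⟨hs.1, hs.2.le.trans hτ.1.2⟩, h⟩) (not_le.2 hs.2)
  set w : ℝ → Cn n := fun s => inv S (γ s)
  set P : ℝ → ℝ := fun s => ∫ t in (0 : ℝ)..s, speed G γ t
  have hsc := speed_continuous hG hγ
  have hPc : Continuous P := intervalIntegral.continuous_primitive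
    (fun p q => hsc.intervalIntegrable p q) 0
  have hP : ∀ p q, p ≤ q → P p ≤ P q ∧ ∫ t in p..q, speed G γ t = P q - P p := fun p q hpq => by
    have e : ∫ t in p..q, speed G γ t = P q - P p := (intervalIntegral.integral_interval_sub_left
      (hsc.intervalIntegrable 0 q) (hsc.intervalIntegrable 0 p)).symm
    have h0 : 0 ≤ ∫ t in p..q, speed G γ t :=
      intervalIntegral.integral_nonneg hpq fun t _ => speed_nonneg G γ t
    exact ⟨by linarith, e⟩
  have hspace : ∀ p q t, 0 ≤ p → p ≤ q → q < τ → t ≤ (0 : ℝ) →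
      gd G (S.map (rot k (t : ℂ) (w p))) (S.map (rot k (t : ℂ) (w q))) ≤ P q - P p := by
    intro p q t hp hpq hq ht
    set θ : ℝ → ℝ := fun s => p + (q - p) * Real.smoothTransition s
    have hθ : ContDiff ℝ 1 θ :=
      contDiff_const.add (contDiff_const.mul Real.smoothTransition.contDiff)
    have hm : Monotone θ := fun s s' hss => by
      have := mul_le_mul_of_nonneg_left (Real.smoothTransition.monotone hss) (sub_nonneg.2 hpq)
      simp only [θ]
      linarith
    have hθI : ∀ s, θ s ∈ Ico 0 τ := fun s => by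
      have h1 := mul_le_mul_of_nonneg_left (Real.smoothTransition.le_one s) (sub_nonneg.2 hpq)
      have h2 := mul_nonneg (sub_nonneg.2 hpq) (Real.smoothTransition.nonneg s)
      simp only [θ, mem_Ico]
      constructor <;> linarith
    have hc : ContDiff ℝ 1 fun s => w (θ s) := contDiff_iff_contDiffAt.2 fun s => by
      set x' := γ (θ s)
      have hx' := mem_chart_source (Cn n) x'
      have hV := ((ch n x').isOpen_inter_preimage_symm (isOpen_image S hρ)).mem_nhds
        (show ch n x' x' ∈ _ from ⟨(ch n x').map_source hx', by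
          rw [mem_preimage, (ch n x').left_inv hx']; exact hin _ (hθI s)⟩)
      have h1 : ContDiffAt ℝ 1 ((fun p => inv S ((ch n x').symm p)) ∘ read n x' γ) (θ s) :=
        ((((inv_holo S hρ x').contDiffAt hV).restrict_scalars ℝ).of_le (by norm_cast)).comp
          (θ s) (hγ.contDiffAt hx')
      have h2 : w =ᶠ[𝓝 (θ s)] (fun p => inv S ((ch n x').symm p)) ∘ read n x' γ := by
        filter_upwards [hγ.1.continuousAt ((ch n x').open_source.mem_nhds hx')] with r hr
        simp [w, Vale.Agent.P253.Circle.read, (ch n x').left_inv hr]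
      exact (h1.congr_of_eventuallyEq h2).comp s hθ.contDiffAt
    have h := shrink S hρ hG hN hHol hc (fun s => (map_inv S (hin _ (hθI s))).1) ht
    have e : S.map ∘ (fun s => w (θ s)) = γ ∘ θ :=
      funext fun s => (map_inv S (hin _ (hθI s))).2
    rw [e] at h
    have e2 : clen G (γ ∘ θ) = P q - P p := by
      rw [clen, integral_reparam hG hγ hθ hm, ← (hP p q hpq).2]
      simp [θ]
    simpa [θ, e2] using h
  set s : ℕ → ℝ := fun j => τ - τ / ((j : ℝ) + 2)
  have hs : ∀ j, 0 ≤ s j ∧ s j < τ := fun j => by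
    have : (1 : ℝ) ≤ (j : ℝ) + 2 := by linarith [Nat.cast_nonneg (α := ℝ) j]
    exact ⟨sub_nonneg.2 (div_le_self hτ0.le this), sub_lt_self τ (by positivity)⟩
  have hst : Tendsto s atTop (𝓝 τ) := by
    have := (tendsto_const_nhds (x := τ)).div_atTop
      (tendsto_atTop_add_const_right atTop (2 : ℝ) tendsto_natCast_atTop_atTop)
    simpa [s] using this.const_sub τ
  have hPs : Tendsto (fun j => P (s j)) atTop (𝓝 (P τ)) := (hPc.tendsto τ).comp hst
  have hmin : ∀ t : ℝ, min t 0 ≤ 0 := fun t => min_le_right t 0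
  have hexi : ∀ t : ℝ, ∃ q, Tendsto (fun j => S.map (rot k ((min t 0 : ℝ) : ℂ) (w (s j))))
      atTop (𝓝 q) := fun t => hC _ fun ε hε => by
    obtain ⟨N, hN'⟩ := Metric.cauchySeq_iff.1 hPs.cauchySeq ε hε
    refine ⟨N, fun i j hi hj => within_of_lt hG ?_⟩
    have hd := hN' i hi j hj
    rw [Real.dist_eq, abs_lt] at hd
    rcases le_total (s i) (s j) with h | h
    · linarith [hspace _ _ _ (hs i).1 h (hs j).2 (hmin t)]
    · rw [gd_comm hG]
      linarith [hspace _ _ _ (hs j).1 h (hs i).2 (hmin t)]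
  choose η hη' using hexi
  have hη : ∀ t : ℝ, t ≤ 0 → Tendsto (fun j => S.map (rot k (t : ℂ) (w (s j)))) atTop (𝓝 (η t)) :=
    fun t ht => by simpa [min_eq_left ht] using hη' t
  have hnear : ∀ t : ℝ, t ≤ 0 → ∀ j,
      gd G (S.map (rot k (t : ℂ) (w (s j)))) (η t) ≤ P τ - P (s j) := fun t ht j => by
    refine le_of_tendsto (((continuous_gd hG _).tendsto _).comp (hη t ht)) ?_
    filter_upwards [hst.eventually (lt_mem_nhds (hs j).2)] with i hi
    simp only [Function.comp_apply]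
    linarith [hspace _ _ t (hs j).1 hi.le (hs i).2 ht, (hP (s i) τ (hs i).2.le).1]
  obtain ⟨C, hC0, hCb⟩ : ∃ C ≥ 0, ∀ᶠ j in atTop,
      Real.sqrt (sq (indMetric G S.map (w (s j))) (eul k (w (s j)))) ≤ C := by
    set q := γ τ
    have hq := mem_chart_source (Cn n) q
    set g : Cn n → ℝ := fun p => Real.sqrt (sq (rp G q p) (fld n ρ q p))
    have hgc : ContinuousAt g (ch n q q) :=
      ((hG.continuous_sq q).sqrt.comp (continuousOn_id.prodMk (fld_holo hρ q).continuousOn)
        fun p hp => ⟨hp, trivial⟩).continuousAt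
        ((ch n q).open_target.mem_nhds ((ch n q).map_source hq))
    have ht : Tendsto (fun j => γ (s j)) atTop (𝓝 q) := (hγ.1.tendsto τ).comp hst
    refine ⟨g (ch n q q) + 1, by linarith [Real.sqrt_nonneg (sq (rp G q (ch n q q))
      (fld n ρ q (ch n q q)))], ?_⟩
    filter_upwards [ht.eventually ((ch n q).open_source.mem_nhds hq),
      ((hgc.tendsto.comp ((ch n q).continuousAt hq)).comp ht).eventually_lt_const
        (lt_add_one (g (ch n q q)))] with j h1 h2
    obtain ⟨hD, he⟩ := map_inv S (hin (s j) (hs j))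
    have hsrc : S.map (w (s j)) ∈ (ch n q).source := by rw [he]; exact h1
    rw [indMetric_eq (S.imm_map hρ hD) hsrc, sq_pullG,
      ← fld_equiv hρ (S.imm_map hρ hD) (Eventually.of_forall fun r =>
        (S.equivariant hρ hD r).2.symm) hsrc, he]
    exact h2.le
  have hlip : ∀ t₁ t₂ : ℝ, t₁ ≤ t₂ → t₂ ≤ 0 → gd G (η t₁) (η t₂) ≤ C * (t₂ - t₁) := by
    intro t₁ t₂ h12 h2
    have hlim : Tendsto (fun j => 2 * (P τ - P (s j)) + C * (t₂ - t₁)) atTop
        (𝓝 (C * (t₂ - t₁))) := by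
      simpa using ((hPs.const_sub (P τ)).const_mul 2).add_const (C * (t₂ - t₁))
    refine ge_of_tendsto hlim ?_
    filter_upwards [hCb] with j hj
    have hD := (map_inv S (hin (s j) (hs j))).1
    have := (time_lip S hρ hG hN hHol hD h12 h2).trans
      (mul_le_mul_of_nonneg_right hj (sub_nonneg.2 h12))
    linarith [gd_triangle hG (η t₁) (S.map (rot k (t₁ : ℂ) (w (s j)))) (η t₂),
      gd_triangle hG (S.map (rot k (t₁ : ℂ) (w (s j)))) (S.map (rot k (t₂ : ℂ) (w (s j)))) (η t₂),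
      hnear t₁ (h12.trans h2) j, hnear t₂ h2 j,
      gd_comm hG (η t₁) (S.map (rot k (t₁ : ℂ) (w (s j))))]
  have ho : o ∈ image S := ⟨0, h0D, h0o⟩
  have hV₀ : {q | q ∈ image S ∧ ‖inv S q‖ < S.r / 2} ∈ 𝓝 o := by
    refine inter_mem ((isOpen_image S hρ).mem_nhds ho) ?_
    refine (continuousAt_inv S hρ ho).norm.eventually_lt_const ?_
    have e : inv S o = 0 := (congrArg (inv S) h0o).symm.trans (inv_map S hρ h0D)
    simp [e, S.r_pos]
  obtain ⟨r₀, hr₀, hball₀⟩ := gd_nhds hG hV₀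
  obtain ⟨j₀, hj₀⟩ := ((hPs.const_sub (P τ)).eventually_lt_const
    (show P τ - P τ < r₀ / 3 by linarith)).exists
  obtain ⟨t₀, ht₀, ht₀n⟩ : ∃ t₀ : ℝ, gd G o (S.map (rot k (t₀ : ℂ) (w (s j₀)))) < r₀ / 3 ∧
      t₀ ≤ 0 := by
    have h2 : Tendsto (fun t : ℝ => S.map (rot k (t : ℂ) (w (s j₀)))) atBot (𝓝 (S.map 0)) :=
      ((S.imm_map hρ h0D).1.tendsto).comp (tendsto_rot_bot S.k_pos _)
    have h1 : Tendsto (fun t : ℝ => S.map (rot k (t : ℂ) (w (s j₀)))) atBot (𝓝 o)  :=
      fun U hU => h2 (by rwa [h0o])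
    exact ((h1.eventually (gd_small hG o (by linarith : (0 : ℝ) < r₀ / 3))).and
      (eventually_le_atBot 0)).exists
  obtain ⟨hz₀i, hz₀n⟩ := hball₀ (η t₀) (by
    linarith [gd_triangle hG o (S.map (rot k (t₀ : ℂ) (w (s j₀)))) (η t₀), hnear t₀ ht₀n j₀])
  set z₀ := inv S (η t₀)
  have hz₀b : z₀ ∈ Metric.ball (0 : Cn n) S.r :=
    mem_ball_zero_iff.2 (by linarith [S.r_pos])
  have hz : Tendsto (fun j => rot k (t₀ : ℂ) (w (s j))) atTop (𝓝 z₀) := by
    refine ((continuousAt_inv S hρ hz₀i).tendsto.comp (hη t₀ ht₀n)).congr fun j => ?_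
    exact inv_map S hρ (dom_back S hρ (map_inv S (hin (s j) (hs j))).1 ht₀n)
  have hval : ∀ u, 0 ≤ u → u ≤ -t₀ → S.Ext z₀ u → S.map (rot k (u : ℂ) z₀) = η (t₀ + u) := by
    intro u hu hu2 hE
    have hc : Continuous fun z : Cn n => rot k (u : ℂ) z := by
      rw [rot_eq]; exact (diag _).continuous
    refine tendsto_nhds_unique (((S.imm_map hρ (shift_mem S hu hE)).1.tendsto).comp
      ((hc.tendsto z₀).comp hz)) ?_
    refine (hη (t₀ + u) (by linarith)).congr fun j => ?_
    simp only [Function.comp_apply]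
    rw [← rot_add]
    push_cast
    ring_nf
  set T := {u : ℝ | u ∈ Icc 0 (-t₀) ∧ ∀ v ∈ Icc (0 : ℝ) u, S.Ext z₀ v}
  have hT0 : (0 : ℝ) ∈ T := ⟨⟨le_rfl, by linarith⟩, fun v hv => by
    rw [le_antisymm hv.2 hv.1]; exact S.ext_zero hρ hz₀b⟩
  have hTb : BddAbove T := ⟨-t₀, fun u hu => hu.1.2⟩
  set b := sSup T
  have hb : b ∈ Icc 0 (-t₀) := ⟨le_csSup hTb hT0, csSup_le ⟨0, hT0⟩ fun u hu => hu.1.2⟩
  obtain ⟨V, hV, δ, hδ, hstep⟩ := S.step hρ (η (t₀ + b))
  obtain ⟨r', hr', hr'V⟩ := gd_nhds hG hV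
  obtain ⟨u, hu, hbu⟩ := exists_lt_of_lt_csSup ⟨0, hT0⟩
    (show b - min δ (r' / (C + 1)) < b by linarith [lt_min hδ (by positivity : 0 < r' / (C + 1))])
  have hub : u ≤ b := le_csSup hTb hu
  have hEu : S.Ext z₀ u := hu.2 u ⟨hu.1.1, le_rfl⟩
  have hext : ∀ v ∈ Icc (0 : ℝ) δ, S.Ext z₀ (u + v) :=
    hstep z₀ u hu.1.1 hEu fun γ' h' h0' => by
      have e : rot k ((-u : ℝ) : ℂ) (rot k (u : ℂ) z₀) = z₀ := by
        rw [← rot_add]; simp [rot_zero]
      rw [← S.spec hρ (shift_mem S hu.1.1 hEu) hu.1.1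
        (by rw [e]; exact mem_ball_zero_iff.1 hz₀b) h' (by rw [e]; exact h0'),
        hval u hu.1.1 hu.1.2 hEu]
      refine hr'V _ ?_
      rw [gd_comm hG]
      refine lt_of_le_of_lt (hlip (t₀ + u) (t₀ + b) (by linarith) (by linarith [hb.2])) ?_
      have h1 : (b - u) * (C + 1) < r' :=
        (lt_div_iff₀ (by positivity)).1 (by linarith [min_le_right δ (r' / (C + 1))])
      linarith [mul_comm C (b - u)]
  have hmem : min (u + δ) (-t₀) ∈ T := by
    refine ⟨⟨le_min (by linarith [hu.1.1]) (by linarith), min_le_right _ _⟩, fun v hv => ?_⟩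
    rcases le_total v u with h' | h'
    · exact hu.2 v ⟨hv.1, h'⟩
    · simpa using hext (v - u) ⟨sub_nonneg.2 h', by linarith [hv.2, min_le_left (u + δ) (-t₀)]⟩
  have hfin : S.Ext z₀ (-t₀) := by
    refine hmem.2 _ ⟨by linarith, le_min ?_ le_rfl⟩
    have := le_csSup hTb hmem
    by_contra hlt
    push Not at hlt
    rw [min_eq_left hlt.le] at this
    linarith [min_le_left δ (r' / (C + 1))]
  have hend := hval (-t₀) (by linarith) le_rfl hfin
  rw [add_neg_cancel] at hend
  have e0 : η 0 = γ τ := tendsto_nhds_unique (hη 0 le_rfl)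
    (((hγ.1.tendsto τ).comp hst).congr fun j => by
      simp [rot_zero, w, (map_inv S (hin (s j) (hs j))).2])
  exact hτ.2 ⟨_, shift_mem S (by linarith) hfin, hend.trans e0⟩

end Vale.Agent.P250.Sink
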