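import Vale.Agent.P250.Sink.Curv

/-!
P250: along the complexified orbits pulled norms are convex, hence monotone, and the orbit energy
satisfies a Riccati inequality.
-/

open scoped ContDiff InnerProductSpace Topology
open Complex Set Filter

noncomputable section

namespace Vale.Agent.P250.Sink

open Vale.Agent.Results.P253.SymmetricDomains (rot RealSymmetry dz bisect line_expansion fderiv_symm)
open Vale.Agent.P253.Circle

variable {n : ℕ} {k : Fin n → ℕ} {D : Set (Cn n)} {H : Cn n → (Cn n →L[ℂ] Cn n)} {a : ℝ}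

/-- The squared length of `v` transported along the orbit of `w`. -/
def push (k : Fin n → ℕ) (H : Cn n → (Cn n →L[ℂ] Cn n)) (w v : Cn n) (t : ℝ) : ℝ :=
  sq (H (rot k (t : ℂ) w)) (rot k (t : ℂ) v)

theorem contDiff_rot (k : Fin n → ℕ) (v : Cn n) : ContDiff ℂ ∞ fun τ : ℂ => rot k τ v :=
  (cflow_rot k).contDiff_orbit v

theorem deriv_rot (k : Fin n → ℕ) (v : Cn n) (τ : ℂ) :
    deriv (fun t : ℂ => rot k t v) τ = eul k (rot k τ v) := by
  have h0 : ∀ j, HasDerivAt (fun t : ℂ => Complex.exp ((k j : ℂ) * t) * v j)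
      ((k j : ℂ) * (Complex.exp ((k j : ℂ) * τ) * v j)) τ := fun j => by
    have := (((hasDerivAt_id τ).const_mul (k j : ℂ)).cexp).mul_const (v j)
    simpa [mul_comm, mul_left_comm, mul_assoc] using this
  exact ((PiLp.continuousLinearEquiv 2 ℂ (fun _ : Fin n => ℂ)).symm.hasFDerivAt.comp_hasDerivAt τ
    (hasDerivAt_pi.2 h0)).deriv

variable (hH : Local D H) (hS : RealSymmetry D H (rot k))

include hH hS in
theorem push_second {w v : Cn n} {t : ℝ} (ht : rot k (t : ℂ) w ∈ D) :
    ∃ X : Cn n, HasDerivAt (push k H w v)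
        (2 * (⟪X, H (rot k (t : ℂ) w) (rot k (t : ℂ) v)⟫_ℂ).re) t ∧
      HasDerivAt (deriv (push k H w v))
        (4 * (-bisect H (rot k (t : ℂ) w) (eul k (rot k (t : ℂ) w)) (rot k (t : ℂ) v)
          + sq (H (rot k (t : ℂ) w)) X)) t := by
  set c : ℂ → Cn n := fun τ => rot k τ w
  set W : ℂ → Cn n := fun τ => rot k τ v
  have hc : ContDiff ℂ ∞ c := contDiff_rot k w
  have hW : ContDiff ℂ ∞ W := contDiff_rot k v
  have ha : c (t : ℂ) ∈ D := ht
  set y := rot k (t : ℂ) w
  set p := rot k (t : ℂ) v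
  set u := eul k y
  set m := dz H y u p
  refine ⟨eul k p + (H y).inverse m, ?_⟩
  have hu : deriv c (t : ℂ) = u := deriv_rot k w _
  have hp : deriv W (t : ℂ) = eul k p := deriv_rot k v _
  obtain ⟨q, hq, hq0, -⟩ := line_expansion hH.isOpen hH.herm hc hW ha 1
  have e1 : (fun s : ℝ => sq (H (c ((t : ℂ) + (s : ℂ) * 1))) (W ((t : ℂ) + (s : ℂ) * 1))) =
      fun s => push k H w v (t + s) := funext fun s => by simp [push, c, W]
  obtain ⟨k₁, l₁, hk, hl, k₂, l₂, hk2, hl2, e⟩ := levi_eq hH hc hW ha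
  have hconst : ∀ s : ℝ, sq (H (c ((t : ℂ) + (s : ℂ) * I))) (W ((t : ℂ) + (s : ℂ) * I)) =
      sq (H y) p := fun s => by
    have h := (hS s y ht).2 p
    rw [fderiv_rot, ← rot_eq, ← rot_add, ← rot_add, add_comm ((s : ℂ) * I)] at h
    exact h
  have hl0 : l₁ =ᶠ[𝓝 0] fun _ => (0 : ℝ) := by
    filter_upwards [hl] with h hh
    exact hh.unique ((hasDerivAt_const h _).congr_of_eventuallyEq (Eventually.of_forall hconst))
  have hl2' : l₂ = 0 := hl2.unique ((hasDerivAt_const _ _).congr_of_eventuallyEq hl0)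
  have hk' : ∀ᶠ h in 𝓝 (0 : ℝ), HasDerivAt (fun s => push k H w v (t + s)) (k₁ h) h := by
    simp only [← e1]; exact hk
  have hd : HasDerivAt (push k H w v) (k₁ 0) t := by
    have h2 : HasDerivAt (fun x => push k H w v (t + (x + -t))) (k₁ 0) t :=
      HasDerivAt.comp_add_const (f := fun s => push k H w v (t + s)) t (-t)
        (by simpa using hk'.self_of_nhds)
    simpa using h2
  refine ⟨?_, ?_⟩
  · have hk0 : k₁ 0 = q 0 := hk.self_of_nhds.unique hq.self_of_nhds
    rw [hk0, hq0] at hd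
    refine hd.congr_deriv ?_
    rw [one_smul, one_smul, hu, hp]
    show 2 * (⟪eul k p, H y p⟫_ℂ).re + (⟪p, fderiv ℝ H y u p⟫_ℂ).re = _
    have hP := hH.pos y ht
    have him : (⟪p, fderiv ℝ H y (I • u) p⟫_ℂ).im = 0 := by
      have h := fderiv_symm hH.isOpen hH.herm ht (I • u) p p
      rw [← inner_conj_symm (fderiv ℝ H y (I • u) p) p] at h
      exact Complex.conj_eq_iff_im.1 h
    have h1 : (⟪(H y).inverse m, H y p⟫_ℂ).re = (⟪p, m⟫_ℂ).re := by
      rw [← hP.sym, hP.apply_inv, ← inner_conj_symm m p, Complex.conj_re]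
    have h2 : (⟪p, m⟫_ℂ).re = 1 / 2 * (⟪p, fderiv ℝ H y u p⟫_ℂ).re := by
      simp [m, dz, smul_apply, sub_apply, Complex.mul_re, Complex.mul_im, him]
    rw [inner_add_left, Complex.add_re, h1, h2]
    ring
  · have hev : deriv (push k H w v) =ᶠ[𝓝 t] fun x => k₁ (x - t) := by
      have ht0 : Tendsto (fun x => x - t) (𝓝 t) (𝓝 0) := by
        simpa using (continuous_sub_right t).tendsto t
      filter_upwards [ht0.eventually hk'] with x hx
      have h2 : HasDerivAt (fun z => push k H w v (t + (z + -t))) (k₁ (x - t)) x :=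
        HasDerivAt.comp_add_const (f := fun s => push k H w v (t + s)) x (-t)
          (by simpa [sub_eq_add_neg] using hx)
      simpa using h2.deriv
    have h3 : HasDerivAt (fun x => k₁ (x - t)) k₂ t :=
      HasDerivAt.comp_sub_const t t (by simpa using hk2)
    refine (h3.congr_of_eventuallyEq hev).congr_deriv ?_
    rw [hl2', add_zero] at e
    rw [e, levi, hu, hp]

theorem tendsto_rot_bot {k : Fin n → ℕ} (hk : ∀ j, 0 < k j) (z : Cn n) :
    Tendsto (fun t : ℝ => rot k (t : ℂ) z) atBot (𝓝 0) := by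
  rw [Metric.tendsto_nhds]
  intro ε hε
  filter_upwards [tendsto_neg_atBot_atTop.eventually (eventually_small hk z hε)] with t ht
  simpa using ht.2

omit hH hS in
theorem push_tendsto (hH : Local D H) (hk : ∀ j, 0 < k j) (h0 : (0 : Cn n) ∈ D) (w v : Cn n) :
    Tendsto (push k H w v) atBot (𝓝 0) := by
  have hc : ContinuousAt (fun q : Cn n × Cn n => sq (H q.1) q.2) (0, 0) := by
    have h1 : ContinuousAt (fun q : Cn n × Cn n => H q.1) (0, 0) :=
      ContinuousAt.comp (g := H) (f := Prod.fst)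
        ((hH.smooth.continuousOn).continuousAt (hH.isOpen.mem_nhds h0)) continuousAt_fst
    exact Complex.continuous_re.continuousAt.comp
      (continuousAt_snd.inner (h1.clm_apply continuousAt_snd))
  have := hc.tendsto.comp ((tendsto_rot_bot hk w).prodMk_nhds (tendsto_rot_bot hk v))
  have h00 : Vale.Agent.P253.Circle.sq (H ((0 : Cn n), (0 : Cn n)).1) ((0 : Cn n), (0 : Cn n)).2 = 0 := by
    simp [Vale.Agent.Results.P253.SymmetricDomains.sq]
  rw [h00] at this
  exact this

variable (hN : Neg D H a) (hk : ∀ j, 0 < k j) (h0 : (0 : Cn n) ∈ D)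

include hH hS hN hk h0 in
theorem push_mono {w v : Cn n} {b : ℝ} (hw : ∀ t ≤ b, rot k (t : ℂ) w ∈ D) :
    (∀ t ≤ b, 0 ≤ deriv (push k H w v) t) ∧ MonotoneOn (push k H w v) (Iic b) := by
  set f := push k H w v
  have hd : ∀ t ≤ b, HasDerivAt f (deriv f t) t ∧
      ∃ s, 0 ≤ s ∧ HasDerivAt (deriv f) s t := fun t ht => by
    obtain ⟨X, h1, h2⟩ := push_second hH hS (v := v) (hw t ht)
    exact ⟨h1.differentiableAt.hasDerivAt, _, by
      nlinarith [(hN _ (hw t ht)).1 (eul k (rot k (t : ℂ) w)) (rot k (t : ℂ) v),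
        (hH.pos _ (hw t ht)).nonneg X], h2⟩
  have hmono : MonotoneOn (deriv f) (Iic b) := by
    refine monotoneOn_of_deriv_nonneg (convex_Iic b) (fun t ht => ?_) (fun t ht => ?_) fun t ht => ?_
    · obtain ⟨-, s, -, h⟩ := hd t ht
      exact h.continuousAt.continuousWithinAt
    · obtain ⟨-, s, -, h⟩ := hd t (interior_subset (s := Iic b) ht)
      exact h.differentiableAt.differentiableWithinAt
    · obtain ⟨-, s, hs, h⟩ := hd t (interior_subset (s := Iic b) ht)
      rw [h.deriv]; exact hs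
  have hlim : Tendsto f atBot (𝓝 0) := push_tendsto hH hk h0 w v
  have hnn : ∀ t ≤ b, 0 ≤ deriv f t := fun t ht => by
    by_contra hneg
    push Not at hneg
    set s := deriv f t
    have hle : ∀ x ≤ t, f t + s * (x - t) ≤ f x := fun x hx => by
      have := (convex_Icc x t).image_sub_le_mul_sub_of_deriv_le (f := f) (C := s)
        (fun y hy => (hd y (hy.2.trans ht)).1.continuousAt.continuousWithinAt)
        (fun y hy => (hd y ((interior_subset (s := Icc x t) hy).2.trans ht)).1.differentiableAt.differentiableWithinAt)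
        (fun y hy => hmono ((interior_subset (s := Icc x t) hy).2.trans ht) ht
          (interior_subset (s := Icc x t) hy).2) x (left_mem_Icc.2 hx) t (right_mem_Icc.2 hx) hx
      linarith
    have hev := (hlim.eventually_lt_const (zero_lt_one (α := ℝ))).and
      (eventually_le_atBot (min t (t + (1 - f t) / s)))
    obtain ⟨x, hx1, hx2⟩ := hev.exists
    have := hle x (hx2.trans (min_le_left _ _))
    have h4 : s * ((1 - f t) / s) = 1 - f t := mul_div_cancel₀ _ hneg.ne
    nlinarith [min_le_right t (t + (1 - f t) / s)]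
  refine ⟨hnn, monotoneOn_of_deriv_nonneg (convex_Iic b)
    (fun t ht => (hd t ht).1.continuousAt.continuousWithinAt)
    (fun t ht => (hd t (interior_subset (s := Iic b) ht)).1.differentiableAt.differentiableWithinAt)
    fun t ht => hnn t (interior_subset (s := Iic b) ht)⟩

/-- The energy of the orbit of `w`. -/
abbrev energy (k : Fin n → ℕ) (H : Cn n → (Cn n →L[ℂ] Cn n)) (w : Cn n) : ℝ → ℝ :=
  push k H w (eul k w)

include hH hS hN in
theorem energy_riccati {w : Cn n} {t : ℝ} (ht : rot k (t : ℂ) w ∈ D) :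
    ∃ f₁ f₂, HasDerivAt (energy k H w) f₁ t ∧ HasDerivAt (deriv (energy k H w)) f₂ t ∧
      4 * a * energy k H w t ^ 3 ≤ energy k H w t * f₂ - f₁ ^ 2 := by
  obtain ⟨X, h1, h2⟩ := push_second hH hS (v := eul k w) ht
  refine ⟨_, _, h1, h2, ?_⟩
  set y := rot k (t : ℂ) w
  set p := rot k (t : ℂ) (eul k w)
  have hP := hH.pos y ht
  have hb := (hN y ht).2 p
  rw [show eul k y = p from rot_eul k _ w]
  have hcs := hP.cauchy X p
  have h4 : (⟪X, H y p⟫_ℂ).re ^ 2 ≤ sq (H y) X * sq (H y) p := by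
    refine le_trans ?_ hcs
    rw [Complex.sq_norm, Complex.normSq_apply]
    nlinarith [mul_self_nonneg (⟪X, H y p⟫_ℂ).im]
  have hf : 0 ≤ sq (H y) p := hP.nonneg p
  show 4 * a * sq (H y) p ^ 3 ≤ sq (H y) p * _ - _
  nlinarith [mul_le_mul_of_nonneg_left hb hf]

end Vale.Agent.P250.Sink
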